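import Mathlib

/-!
The Pfaffian of an alternating matrix of degree six.
-/

open Matrix

namespace Vale.Agent.P011Z.Cl.Pfx

variable {R : Type} [Field R]

/-- The Pfaffian as a polynomial in the entries above the diagonal. -/
def pf6 (w : Matrix (Fin 3 × Fin 2) (Fin 3 × Fin 2) R) : R :=
  w (0, 0) (0, 1) * (w (1, 0) (1, 1) * w (2, 0) (2, 1) - w (1, 0) (2, 0) * w (1, 1) (2, 1) +
      w (1, 0) (2, 1) * w (1, 1) (2, 0)) -
    w (0, 0) (1, 0) * (w (0, 1) (1, 1) * w (2, 0) (2, 1) - w (0, 1) (2, 0) * w (1, 1) (2, 1) +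
      w (0, 1) (2, 1) * w (1, 1) (2, 0)) +
    w (0, 0) (1, 1) * (w (0, 1) (1, 0) * w (2, 0) (2, 1) - w (0, 1) (2, 0) * w (1, 0) (2, 1) +
      w (0, 1) (2, 1) * w (1, 0) (2, 0)) -
    w (0, 0) (2, 0) * (w (0, 1) (1, 0) * w (1, 1) (2, 1) - w (0, 1) (1, 1) * w (1, 0) (2, 1) +
      w (0, 1) (2, 1) * w (1, 0) (1, 1)) +
    w (0, 0) (2, 1) * (w (0, 1) (1, 0) * w (1, 1) (2, 0) - w (0, 1) (1, 1) * w (1, 0) (2, 0) +
      w (0, 1) (2, 0) * w (1, 0) (1, 1))

theorem cases6 (q : Fin 3 × Fin 2) :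
    q = (0, 0) ∨ q = (0, 1) ∨ q = (1, 0) ∨ q = (1, 1) ∨ q = (2, 0) ∨ q = (2, 1) := by
  revert q
  decide

theorem alt_apply {n : Type} {w : Matrix n n R} (hw : wᵀ = -w) (a b : n) : w a b = -w b a := by
  have h := congrFun (congrFun hw b) a
  simpa using h

theorem alt_diag [CharZero R] {n : Type} {w : Matrix n n R} (hw : wᵀ = -w) (a : n) :
    w a a = 0 := by
  have h := alt_apply hw a a
  linear_combination h / 2

theorem alt_congr {n : Type} [Fintype n] (P : Matrix n n R) {w : Matrix n n R} (hw : wᵀ = -w) :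
    (Pᵀ * w * P)ᵀ = -(Pᵀ * w * P) := by
  rw [transpose_mul, transpose_mul, transpose_transpose, hw]
  simp [Matrix.mul_assoc]

theorem pf6_elem [CharZero R] {w v : Matrix (Fin 3 × Fin 2) (Fin 3 × Fin 2) R} (hw : wᵀ = -w)
    {i j : Fin 3 × Fin 2} (hij : i ≠ j) (c : R)
    (hv : ∀ a b, v a b = w a b + (if b = j then c * w a i else 0) +
      if a = j then c * w i b else 0) : pf6 v = pf6 w := by
  have h0 := alt_diag hw
  have h1 := alt_apply hw (0, 1) (0, 0)
  have h2 := alt_apply hw (1, 0) (0, 0)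
  have h3 := alt_apply hw (1, 1) (0, 0)
  have h4 := alt_apply hw (2, 0) (0, 0)
  have h5 := alt_apply hw (2, 1) (0, 0)
  have h6 := alt_apply hw (1, 0) (0, 1)
  have h7 := alt_apply hw (1, 1) (0, 1)
  have h8 := alt_apply hw (2, 0) (0, 1)
  have h9 := alt_apply hw (2, 1) (0, 1)
  have h10 := alt_apply hw (1, 1) (1, 0)
  have h11 := alt_apply hw (2, 0) (1, 0)
  have h12 := alt_apply hw (2, 1) (1, 0)
  have h13 := alt_apply hw (2, 0) (1, 1)
  have h14 := alt_apply hw (2, 1) (1, 1)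
  have h15 := alt_apply hw (2, 1) (2, 0)
  simp only [pf6, hv]
  rcases cases6 i with rfl | rfl | rfl | rfl | rfl | rfl <;>
    rcases cases6 j with rfl | rfl | rfl | rfl | rfl | rfl <;>
    first
    | exact absurd rfl hij
    | (simp only [Prod.mk.injEq, Fin.isValue, Fin.reduceEq, and_true, and_false, false_and,
        and_self, if_true, if_false, h0, h1, h2, h3, h4, h5, h6, h7, h8, h9, h10, h11, h12, h13,
        h14, h15, zero_ne_one, one_ne_zero]
       ring)

theorem pf6_congr [CharZero R] (P : Matrix (Fin 3 × Fin 2) (Fin 3 × Fin 2) R) :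
    ∀ {w : Matrix (Fin 3 × Fin 2) (Fin 3 × Fin 2) R}, wᵀ = -w →
      pf6 (Pᵀ * w * P) = P.det * pf6 w := by
  induction P using Matrix.diagonal_transvection_induction with
  | hdiag D _ =>
    intro w _
    simp only [pf6, diagonal_transpose, mul_diagonal, diagonal_mul, det_diagonal,
      Fintype.prod_prod_type, Fin.prod_univ_three, Fin.prod_univ_two]
    ring
  | htransvec t =>
    intro w hw
    obtain ⟨i, j, hij, c⟩ := t
    rw [TransvectionStruct.det, one_mul]
    refine pf6_elem hw hij c fun a b => ?_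
    have ht : (transvection i j c)ᵀ = transvection j i c := by
      simp [transvection, transpose_add]
    simp only [TransvectionStruct.toMatrix_mk, ht]
    have h0 := alt_diag hw i
    by_cases hb : b = j
    · subst hb
      rw [mul_transvection_apply_same]
      by_cases ha : a = b
      · subst ha
        simp [h0]
        ring
      · simp [ha]
    · rw [mul_transvection_apply_of_ne _ _ _ _ hb]
      by_cases ha : a = j
      · subst ha
        simp [hb]
      · simp [ha, hb]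
  | hmul A B hA hB =>
    intro w hw
    have h : (A * B)ᵀ * w * (A * B) = Bᵀ * (Aᵀ * w * A) * B := by
      simp [Matrix.mul_assoc]
    rw [h, hB (alt_congr A hw), hA hw, det_mul]
    ring

theorem pf6_sq [CharZero R] {w : Matrix (Fin 3 × Fin 2) (Fin 3 × Fin 2) R} (hw : wᵀ = -w) :
    pf6 w ^ 2 = w.det := by
  have h0 := alt_diag hw
  let e : Fin 6 → Fin 3 × Fin 2 := ![(0, 0), (0, 1), (1, 0), (1, 1), (2, 0), (2, 1)]
  have he : Function.Bijective e := by decide
  rw [← det_submatrix_equiv_self (Equiv.ofBijective e he) w]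
  have h : w.submatrix (Equiv.ofBijective e he) (Equiv.ofBijective e he) =
      !![0, w (0, 0) (0, 1), w (0, 0) (1, 0), w (0, 0) (1, 1), w (0, 0) (2, 0), w (0, 0) (2, 1);
        -w (0, 0) (0, 1), 0, w (0, 1) (1, 0), w (0, 1) (1, 1), w (0, 1) (2, 0), w (0, 1) (2, 1);
        -w (0, 0) (1, 0), -w (0, 1) (1, 0), 0, w (1, 0) (1, 1), w (1, 0) (2, 0), w (1, 0) (2, 1);
        -w (0, 0) (1, 1), -w (0, 1) (1, 1), -w (1, 0) (1, 1), 0, w (1, 1) (2, 0), w (1, 1) (2, 1);
        -w (0, 0) (2, 0), -w (0, 1) (2, 0), -w (1, 0) (2, 0), -w (1, 1) (2, 0), 0, w (2, 0) (2, 1);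
        -w (0, 0) (2, 1), -w (0, 1) (2, 1), -w (1, 0) (2, 1), -w (1, 1) (2, 1), -w (2, 0) (2, 1),
          0] := by
    ext a b
    fin_cases a <;> fin_cases b <;>
      first
      | exact h0 _
      | rfl
      | exact alt_apply hw _ _
  rw [h, pf6]
  generalize w (0, 0) (0, 1) = a1
  generalize w (0, 0) (1, 0) = a2
  generalize w (0, 0) (1, 1) = a3
  generalize w (0, 0) (2, 0) = a4
  generalize w (0, 0) (2, 1) = a5
  generalize w (0, 1) (1, 0) = b2
  generalize w (0, 1) (1, 1) = b3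
  generalize w (0, 1) (2, 0) = b4
  generalize w (0, 1) (2, 1) = b5
  generalize w (1, 0) (1, 1) = c3
  generalize w (1, 0) (2, 0) = c4
  generalize w (1, 0) (2, 1) = c5
  generalize w (1, 1) (2, 0) = d4
  generalize w (1, 1) (2, 1) = d5
  generalize w (2, 0) (2, 1) = e5
  eval_det
  ring

end Vale.Agent.P011Z.Cl.Pfx
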