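import Vale.Agent.P011Z.Cl.Defs
import Vale.Agent.P011Z.Cl.Pf.A

/-!
Matrix lemmas for the block Pf.
-/

open Matrix

noncomputable section

namespace Vale.Agent.P011Z.Cl.Pfx

variable {n : Type} [Fintype n] [DecidableEq n]

omit [DecidableEq n] in
theorem cmp_mulVec (σ : Gq) (Q : Matrix n n Om) (y : n → Om) :
    σ ∘ (Q *ᵥ y) = Q.map σ *ᵥ (σ ∘ y) := by
  ext i
  simp [mulVec, dotProduct]

omit [DecidableEq n] in
theorem cmp_dot (σ : Gq) (x y : n → Om) : σ (x ⬝ᵥ y) = (σ ∘ x) ⬝ᵥ (σ ∘ y) := by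
  simp [dotProduct]

omit [Fintype n] [DecidableEq n] in
theorem cmp_add (σ : Gq) (x y : n → Om) : σ ∘ (x + y) = σ ∘ x + σ ∘ y := by
  ext i
  simp

omit [Fintype n] [DecidableEq n] in
theorem cmp_smul (σ : Gq) (t : Om) (x : n → Om) : σ ∘ (t • x) = σ t • (σ ∘ x) := by
  ext i
  simp

omit [Fintype n] [DecidableEq n] in
theorem cmp_cmp (σ τ : Gq) (x : n → Om) : σ ∘ (τ ∘ x) = ⇑(σ * τ) ∘ x := rfl

omit [Fintype n] [DecidableEq n] in
theorem cmp_one (x : n → Om) : ⇑(1 : Gq) ∘ x = x := rfl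

omit [Fintype n] [DecidableEq n] in
theorem cmp_zero (σ : Gq) : σ ∘ (0 : n → Om) = 0 := by
  ext i
  simp

omit [Fintype n] [DecidableEq n] in
theorem mp_one (w : Matrix n n Om) : w.map ⇑(1 : Gq) = w := rfl

omit [Fintype n] [DecidableEq n] in
theorem mp_mp (σ τ : Gq) (w : Matrix n n Om) : (w.map τ).map σ = w.map ⇑(σ * τ) := rfl

omit [Fintype n] [DecidableEq n] in
theorem mp_add (σ : Gq) (w v : Matrix n n Om) : (w + v).map σ = w.map σ + v.map σ := by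
  ext i j
  simp

omit [Fintype n] [DecidableEq n] in
theorem mp_smul (σ : Gq) (t : Om) (w : Matrix n n Om) : (t • w).map σ = σ t • w.map σ := by
  ext i j
  simp

omit [Fintype n] [DecidableEq n] in
theorem mp_zero (σ : Gq) : (0 : Matrix n n Om).map σ = 0 := by
  ext i j
  simp

omit [Fintype n] in
theorem mp_id (σ : Gq) : (1 : Matrix n n Om).map σ = 1 :=
  Matrix.map_one _ (map_zero σ) (map_one σ)

omit [DecidableEq n] in
theorem mp_mul (σ : Gq) (w v : Matrix n n Om) : (w * v).map σ = w.map σ * v.map σ := by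
  ext i j
  simp [mul_apply]

omit [Fintype n] [DecidableEq n] in
theorem mp_tr (σ : Gq) (w : Matrix n n Om) : wᵀ.map σ = (w.map σ)ᵀ := rfl

omit [DecidableEq n] in
theorem mp_trace (σ : Gq) (w : Matrix n n Om) : σ w.trace = (w.map σ).trace := by
  simp [trace]

theorem mp_det (σ : Gq) (w : Matrix n n Om) : (w.map σ).det = σ w.det :=
  ((σ : Om →+* Om).map_det w).symm

theorem mp_inv (σ : Gq) (w : Matrix n n Om) : w⁻¹.map σ = (w.map σ)⁻¹ := by
  by_cases h : w.det = 0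
  · rw [nonsing_inv_apply_not_isUnit w (by simp [h]),
      nonsing_inv_apply_not_isUnit _ (by simp [mp_det, h]), mp_zero]
  · refine (inv_eq_left_inv ?_).symm
    rw [← mp_mul, nonsing_inv_mul _ (Ne.isUnit h), mp_id]

omit [Fintype n] [DecidableEq n] in
theorem mp_alt (σ : Gq) {w : Matrix n n Om} (hw : wᵀ = -w) : (w.map σ)ᵀ = -w.map σ := by
  ext i j
  simp [alt_apply hw j i]

theorem smul_inv0 {t : Om} (ht : t ≠ 0) (w : Matrix n n Om) : (t • w)⁻¹ = t⁻¹ • w⁻¹ := by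
  by_cases h : w.det = 0
  · rw [nonsing_inv_apply_not_isUnit w (by simp [h]),
      nonsing_inv_apply_not_isUnit _ (by simp [h]), smul_zero]
  · refine inv_eq_left_inv ?_
    rw [smul_mul_smul_comm, nonsing_inv_mul _ (Ne.isUnit h), inv_mul_cancel₀ ht, one_smul]

theorem alt_mid (μ : Om) (P : Matrix n n Om) {w : Matrix n n Om} (hw : wᵀ = -w) :
    (μ • (Pᵀ⁻¹ * w * P⁻¹))ᵀ = -(μ • (Pᵀ⁻¹ * w * P⁻¹)) := by
  rw [transpose_smul, ← transpose_nonsing_inv, alt_congr _ hw, smul_neg]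

omit [DecidableEq n] in
theorem alt_dot {w : Matrix n n Om} (hw : wᵀ = -w) (u v : n → Om) :
    v ⬝ᵥ (w *ᵥ u) = -(u ⬝ᵥ (w *ᵥ v)) := by
  rw [dotProduct_mulVec, ← mulVec_transpose, hw, neg_mulVec, neg_dotProduct, dotProduct_comm]

omit [DecidableEq n] in
theorem alt_dot_self {w : Matrix n n Om} (hw : wᵀ = -w) (u : n → Om) : u ⬝ᵥ (w *ᵥ u) = 0 := by
  have h := alt_dot hw u u
  linear_combination h / 2

omit [DecidableEq n] in
theorem dot_congr (P Q w : Matrix n n Om) (u v : n → Om) :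
    (P *ᵥ u) ⬝ᵥ (w *ᵥ (Q *ᵥ v)) = u ⬝ᵥ ((Pᵀ * w * Q) *ᵥ v) := by
  rw [← mulVec_mulVec, ← mulVec_mulVec, dotProduct_mulVec u Pᵀ, vecMul_transpose]

omit [DecidableEq n] in
theorem dot_comb (w : Matrix n n Om) (a b c d : Om) (u v x y : n → Om) :
    (a • u + b • v) ⬝ᵥ (w *ᵥ (c • x + d • y)) = a * c * (u ⬝ᵥ (w *ᵥ x)) + a * d * (u ⬝ᵥ (w *ᵥ y)) +
      b * c * (v ⬝ᵥ (w *ᵥ x)) + b * d * (v ⬝ᵥ (w *ᵥ y)) := by
  simp only [mulVec_add, mulVec_smul, add_dotProduct, dotProduct_add, smul_dotProduct,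
    dotProduct_smul, smul_eq_mul]
  ring

theorem mid_cancel {P : Matrix n n Om} (hP : P.det ≠ 0) (w : Matrix n n Om) :
    Pᵀ * (Pᵀ⁻¹ * w * P⁻¹) * P = w := by
  have h1 : Pᵀ * Pᵀ⁻¹ = 1 := mul_nonsing_inv _ (by rw [det_transpose]; exact Ne.isUnit hP)
  have h2 : P⁻¹ * P = 1 := nonsing_inv_mul _ (Ne.isUnit hP)
  calc Pᵀ * (Pᵀ⁻¹ * w * P⁻¹) * P = (Pᵀ * Pᵀ⁻¹) * w * (P⁻¹ * P) := by simp only [Matrix.mul_assoc]
    _ = w := by rw [h1, h2, Matrix.one_mul, Matrix.mul_one]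

theorem ext_dot {A B : Matrix n n Om} (h : ∀ u v, u ⬝ᵥ (A *ᵥ v) = u ⬝ᵥ (B *ᵥ v)) : A = B := by
  ext i j
  simpa using h (Pi.single i 1) (Pi.single j 1)

theorem ext_mulVec {A B : Matrix n n Om} (h : ∀ v, A *ᵥ v = B *ᵥ v) : A = B :=
  ext_dot fun u v => by rw [h]

theorem pf6_smul (t : Om) (w : Matrix I6 I6 Om) : pf6 (t • w) = t ^ 3 * pf6 w := by
  simp only [pf6, Matrix.smul_apply, smul_eq_mul]
  ring

theorem pf6_map (σ : Gq) (w : Matrix I6 I6 Om) : pf6 (w.map σ) = σ (pf6 w) := by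
  simp only [pf6, map_apply, map_add, map_sub, map_mul]

theorem pf6_j6 : pf6 j6 = 1 := by
  simp [pf6, j6, j2]

/-- A matrix which is self-adjoint for all alternating forms is a scalar. -/
theorem scalar_of_alt {R : Matrix I6 I6 Om}
    (h : ∀ w : Matrix I6 I6 Om, wᵀ = -w → Rᵀ * w = w * R) : ∃ r : Om, R = r • 1 := by
  have key : ∀ a b : I6, Rᵀ * (single a b 1 - single b a 1) = (single a b 1 - single b a 1) * R :=
    fun a b => h _ (by simp [transpose_sub])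
  have h1 : ∀ a b : I6, R a a = R b b := by
    intro a b
    by_cases hab : a = b
    · rw [hab]
    · have := congrFun (congrFun (key a b) a) b
      simpa [Matrix.mul_sub, Matrix.sub_mul, hab, Ne.symm hab] using this
  have h2 : ∀ a c : I6, a ≠ c → R a c = 0 := by
    intro a c hac
    obtain ⟨b, hba, hbc⟩ : ∃ b : I6, b ≠ a ∧ b ≠ c := by
      revert a c
      decide
    have := congrFun (congrFun (key a b) c) b
    simpa [Matrix.mul_sub, Matrix.sub_mul, hba, hbc, Ne.symm hba, Ne.symm hbc, hac,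
      Ne.symm hac] using this
  refine ⟨R 0 0, ?_⟩
  ext a c
  by_cases hac : a = c
  · subst hac
    simpa using h1 a 0
  · simp [h2 a c hac, hac]

end Vale.Agent.P011Z.Cl.Pfx

end
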